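import Vale.Agent.P231.W.Abs
import Vale.Agent.P231.H766.Uec1

/-!
# P231 (A): the space of loops of length less than `4 D`, with the rotation flow
-/

set_option linter.unusedSectionVars false
set_option linter.unusedVariables false

open Set Filter Topology
open scoped ContDiff ENNReal

namespace Vale.Agent.P231Z.Loop

noncomputable section

open Vale.Agent.P231 Vale.Agent.P231.Fm Vale.Agent.P231.W

/-- the curves of period one -/
abbrev X (M : Type*) : Type _ := {c : ℝ → M // ∀ t, c (t + 1) = c t}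

variable {M : Type*} [MetricSpace M]

/-- the length of a loop -/
def len (c : X M) : ℝ≥0∞ := eVariationOn c.1 (Icc 0 1)

/-- the diffeology of the smooth loops of length less than `4 D` -/
def dX (DM : Dif M) (D : ℝ) : Dif (X M) where
  At {E'} _ _ _ u x := ∀ᶠ y in 𝓝 x, (∀ t, DM.At (fun p : E' × ℝ => (u p.1).1 p.2) (y, t)) ∧
    eVariationOn (u y).1 (Icc 0 1) < ENNReal.ofReal (4 * D)
  open' h := eventually_eventually_nhds.2 h
  congr {E'} _ _ _ {u v x} h hv := by
    filter_upwards [h, hv.eventuallyEq_nhds] with y h1 h2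
    refine ⟨fun t => DM.congr (h1.1 t) ?_, h2.self_of_nhds ▸ h1.2⟩
    filter_upwards [(continuousAt_fst (p := (y, t))).eventually h2] with p hp
    rw [hp]
  comp {E' F'} _ _ _ _ _ _ {u g x} h hg := by
    filter_upwards [hg.continuousAt.eventually h, hg.eventually] with y h1 h2
    refine ⟨fun t => ?_, h1.2⟩
    have h3 : Sm (fun p : E' × ℝ => (g p.1, p.2)) (y, t) :=
      (Sm.comp (f := g) (g := Prod.fst) h2 (Sm.of_contDiff contDiff_fst _)).prodMk
        (Sm.of_contDiff contDiff_snd _)
    exact DM.comp (u := fun p : F' × ℝ => (u p.1).1 p.2) (g := fun p : E' × ℝ => (g p.1, p.2))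
      (x := (y, t)) (h1.1 t) h3

variable {DM : Dif M} {D : ℝ}

theorem X.ext {c c' : X M} (h : ∀ t, c.1 t = c'.1 t) : c = c' := Subtype.ext (funext h)

theorem len_lt {E' : Type} [NormedAddCommGroup E'] [NormedSpace ℝ E'] [FiniteDimensional ℝ E']
    {u : E' → X M} {x : E'} (h : (dX DM D).At u x) : len (u x) < ENNReal.ofReal (4 * D) :=
  (Eventually.self_of_nhds h).2

/-- the evaluation is smooth -/
theorem map_eval : ((dX DM D).prod (Dif.lin ℝ)).Map DM (fun p => p.1.1 p.2) :=
  fun {E'} _ _ _ {u x} h =>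
    DM.comp (u := fun p : E' × ℝ => (u p.1).1.1 p.2) (g := fun y => (y, (u y).2))
      ((Eventually.self_of_nhds h.1).1 (u x).2) ((Sm.of_contDiff contDiff_id x).prodMk h.2)

/-- smooth maps to the space of loops -/
theorem map_to' {B : Type*} {DB : Dif B} {f : B → X M}
    (hf : (DB.prod (Dif.lin ℝ)).Map DM (fun p => (f p.1).1 p.2))
    (hl : ∀ {E' : Type} [NormedAddCommGroup E'] [NormedSpace ℝ E'] [FiniteDimensional ℝ E']
      {u : E' → B} {x : E'}, DB.At u x → len (f (u x)) < ENNReal.ofReal (4 * D)) :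
    DB.Map (dX DM D) f := fun {E'} _ _ _ {u x} h => by
  filter_upwards [DB.open' h] with y hy
  exact ⟨fun t => hf (u := fun p : E' × ℝ => (u p.1, p.2))
    ⟨DB.comp (u := u) (g := Prod.fst) hy (Sm.of_contDiff contDiff_fst _),
      Sm.of_contDiff contDiff_snd _⟩, hl hy⟩

theorem map_to {B : Type*} {DB : Dif B} {f : B → X M}
    (hf : (DB.prod (Dif.lin ℝ)).Map DM (fun p => (f p.1).1 p.2))
    (hl : ∀ b, len (f b) < ENNReal.ofReal (4 * D)) : DB.Map (dX DM D) f :=
  map_to' hf fun _ => hl _

/-- the rotation of the loops -/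
def Φ (D : ℝ) (p : X M × ℝ) : X M :=
  ⟨fun s => p.1.1 (s + p.2 / (2 * D)), fun s => by
    show p.1.1 (s + 1 + _) = _
    rw [add_right_comm, p.1.2]⟩

/-- the base point -/
def ev (c : X M) : M := c.1 0

/-- the constant loops -/
def cst (m : M) : X M := ⟨fun _ => m, fun _ => rfl⟩

theorem Φ_apply (c : X M) (t s : ℝ) : (Φ D (c, t)).1 s = c.1 (s + t / (2 * D)) := rfl

theorem len_Φ (c : X M) (t : ℝ) : len (Φ D (c, t)) = len c := by
  have h := eVariationOn.comp_eq_of_monotoneOn c.1 (t := Icc 0 1) (fun s => s + t / (2 * D))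
    (fun a _ b _ h => by simpa using h)
  rw [image_add_const_Icc, zero_add, add_comm, H766.var_period c.2] at h
  exact h

theorem len_cst (m : M) : len (cst m) = 0 :=
  eVariationOn.constant_on (by rintro _ ⟨_, _, rfl⟩ _ ⟨_, _, rfl⟩; rfl)

theorem isFlow_Φ (hD : 0 < D) : IsFlow (dX DM D) (2 * D) (Φ D) where
  map := map_to' (DB := (dX DM D).prod (Dif.lin ℝ)) (fun {E'} _ _ _ {u x} h => map_eval (DM := DM) (D := D)
      (u := fun y => ((u y).1.1, (u y).2 + (u y).1.2 / (2 * D))) ⟨h.1.1,
        Sm.comp (f := fun q : ℝ × ℝ => q.1 + q.2 / (2 * D)) (g := fun y => ((u y).2, (u y).1.2))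
          (Sm.of_contDiff (contDiff_fst.add (contDiff_snd.div_const _)) _)
          (Sm.prodMk h.2 h.1.2)⟩)
    fun h => (len_Φ _ _).trans_lt (len_lt h.1)
  zero c := X.ext fun s => by rw [Φ_apply, zero_div, add_zero]
  add c s t := X.ext fun r => by rw [Φ_apply, Φ_apply, Φ_apply, add_div, add_assoc, add_comm (t / _)]
  per c := X.ext fun s => by rw [Φ_apply, div_self (by positivity), c.2]

theorem map_ev : (dX DM D).Map DM ev := fun h => map_eval (Form.map_slice 0 h)

theorem map_cst (hD : 0 < D) : DM.Map (dX DM D) cst :=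
  map_to (fun h => h.1) fun m => by rw [len_cst]; exact ENNReal.ofReal_pos.2 (by positivity)

theorem ev_cst (m : M) : ev (cst m) = m := rfl

theorem Φ_cst (m : M) (t : ℝ) : Φ D (cst m, t) = cst m := rfl

end

end Vale.Agent.P231Z.Loop
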