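import Vale.Agent.P231.H766.D4
import Vale.Agent.P231Z.Loop.Defs

/-!
# P231 (A): the closed geodesics and the contraction of their push-offs, in the space of loops
-/

set_option maxSynthPendingDepth 3
set_option linter.unusedSectionVars false
set_option linter.unusedVariables false

open Bundle Manifold Set Filter Module MeasureTheory
open scoped ContDiff Manifold Topology ENNReal

namespace Vale.Agent.P231Z.Loop

noncomputable section

open Vale.Agent.P234 Vale.Agent.P231 Vale.Agent.P231.Fm Vale.Agent.P231.W Vale.Agent.P231.WR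
  Vale.Agent.P231.WF Vale.Agent.P231.H584 Vale.Agent.P231.H766

section Var

variable {M : Type*} [PseudoEMetricSpace M]

/-- the variation over two periods -/
theorem var_double {c : ℝ → M} {T : ℝ} (hT : 0 < T) (hc : ∀ t, c (t + T) = c t) :
    eVariationOn c (Icc 0 (2 * T)) = 2 * eVariationOn c (Icc 0 T) := by
  have h1 := eVariationOn.Icc_add_Icc c (s := univ) (a := 0) (b := T) (c := 2 * T) hT.le
    (by linarith) (mem_univ _)
  have h2 := eVariationOn.comp_eq_of_monotoneOn c (t := Icc 0 T) (fun s => s + T)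
    (fun a _ b _ h => by simpa using h)
  rw [image_add_const_Icc, zero_add, ← two_mul, show c ∘ (fun s => s + T) = c from funext hc] at h2
  simp only [univ_inter] at h1
  rw [← h1, ← h2, two_mul]

end Var

variable {E : Type*} [NormedAddCommGroup E] [NormedSpace ℝ E]
  {M : Type*} [MetricSpace M] [ChartedSpace E M]
  [RiemannianBundle (fun x : M => TangentSpace 𝓘(ℝ, E) x)]
  {e : ∀ x : M, TangentSpace 𝓘(ℝ, E) x → M}
  [FiniteDimensional ℝ E] [IsManifold 𝓘(ℝ, E) ∞ M]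
  [IsContMDiffRiemannianBundle 𝓘(ℝ, E) ∞ E (fun x : M => TangentSpace 𝓘(ℝ, E) x)]
  [CompactSpace M] [ConnectedSpace M] [IsRiemannianManifold 𝓘(ℝ, E) M]

variable {D : ℝ}

theorem var_gm (F : Facts e) (v : UT E M) {T : ℝ} (hT : 0 ≤ T) :
    eVariationOn (fun t => gm e (v, t)) (Icc 0 T) ≤ ENNReal.ofReal T := by
  have h1 : LipschitzOnWith 1 (fun t => gm e (v, t)) (Icc 0 T) :=
    LipschitzOnWith.of_dist_le_mul fun s _ t _ => by
      have h : dist (gm e (v, s)) (gm e (v, t)) ≤ |t - s| * nm (foot v) (vec' v) :=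
        dist_exp_le F.isExp (foot v) (vec' v : E) s t
      rw [nm_vec' v, mul_one] at h
      rw [NNReal.coe_one, one_mul, dist_comm s t, Real.dist_eq]
      exact h
  have h2 := h1.comp_eVariationOn_le (g := id) (s := Icc 0 T) (mapsTo_id _)
  have h3 := (monotone_id.monotoneOn (Icc 0 T)).eVariationOn_eq (a := 0) (b := T)
    (left_mem_Icc.2 hT) (right_mem_Icc.2 hT)
  rw [inter_self, id, id, sub_zero] at h3
  rw [ENNReal.coe_one, one_mul] at h2
  exact h2.trans h3.le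

theorem two_lt_four (hD : 0 < D) : ENNReal.ofReal (2 * D) < ENNReal.ofReal (4 * D) :=
  (ENNReal.ofReal_lt_ofReal_iff (by positivity)).2 (by linarith)

/-- the closed geodesic of length `2 D` -/
def γ (F : Facts e) (hD : 0 < D) (hB : InjGE e D) (hdiam : ∀ p q : M, dist p q ≤ D)
    (v : UT E M) : X M :=
  ⟨fun s => gm e (v, 2 * D * s), fun s => by
    show gm e (v, 2 * D * (s + 1)) = gm e (v, 2 * D * s)
    rw [mul_add, mul_one, add_comm, ← gm_phi F, W.phi_per F hD hB hdiam]⟩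

variable {F : Facts e} {hD : 0 < D} {hB : InjGE e D} {hdiam : ∀ p q : M, dist p q ≤ D}

theorem γ_apply (v : UT E M) (s : ℝ) : (γ F hD hB hdiam v).1 s = gm e (v, 2 * D * s) := rfl

theorem map_γ : (dUT E M).Map (dX (dM E M) D) (γ F hD hB hdiam) :=
  map_to (f := γ F hD hB hdiam) (fun h => map_gm F (map_scale (2 * D) h)) fun v =>
    ((var_scale (fun t => gm e (v, t)) (by positivity)).trans_le
      (var_gm F v (by positivity))).trans_lt (two_lt_four hD)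

theorem γ_phi (v : UT E M) (t : ℝ) :
    γ F hD hB hdiam (phi F (v, t)) = Φ D (γ F hD hB hdiam v, t) := X.ext fun s => by
  rw [Φ_apply, γ_apply, γ_apply, gm_phi F]
  congr 2
  field_simp
  ring

section Orb

variable {B : Type*} {DB : Dif B} {Λ : B × ℝ → B}

/-- the loop of a function along the orbit, run `n` times -/
def orb (hΛ : IsFlow DB (2 * D) Λ) (n : ℕ) (f : B × ℝ → M) (p : B × ℝ) : X M :=
  ⟨fun τ => f (Λ (p.1, n * (2 * D) * τ), p.2), fun τ => by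
    have h : ∀ (k : ℕ) (b : B), Λ (b, k * (2 * D)) = b := fun k b => by
      induction k with
      | zero => rw [Nat.cast_zero, zero_mul, hΛ.zero]
      | succ k ih => rw [Nat.cast_succ, add_mul, one_mul, ← hΛ.add, ih, hΛ.per]
    show f (Λ (p.1, n * (2 * D) * (τ + 1)), p.2) = f (Λ (p.1, n * (2 * D) * τ), p.2)
    rw [mul_add, mul_one, ← hΛ.add, h]⟩

theorem orb_apply (hΛ : IsFlow DB (2 * D) Λ) (n : ℕ) (f : B × ℝ → M) (b : B) (s τ : ℝ) :
    (orb hΛ n f (b, s)).1 τ = f (Λ (b, n * (2 * D) * τ), s) := rfl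

theorem map_orb (hΛ : IsFlow DB (2 * D) Λ) (n : ℕ) {f : B × ℝ → M}
    (hf : (DB.prod (Dif.lin ℝ)).Map (dM E M) f)
    (hl : ∀ p, len (orb hΛ n f p) < ENNReal.ofReal (4 * D)) :
    (DB.prod (Dif.lin ℝ)).Map (dX (dM E M) D) (orb hΛ n f) :=
  map_to (DB := DB.prod (Dif.lin ℝ)) (fun {E'} _ _ _ {u x} h => hf (u := fun y => (Λ ((u y).1.1, n * (2 * D) * (u y).2),
    (u y).1.2)) ⟨hΛ.map (map_scale (D := DB) (n * (2 * D))
      (u := fun y => ((u y).1.1, (u y).2)) ⟨h.1.1, h.2⟩), h.1.2⟩) hl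

theorem orb_flow (hD : 0 < D) (hΛ : IsFlow DB (2 * D) Λ) (n : ℕ) (f : B × ℝ → M) (b : B)
    (s t : ℝ) : orb hΛ n f (Λ (b, n * t), s) = Φ D (orb hΛ n f (b, s), t) := X.ext fun τ => by
  change f (Λ (Λ (b, n * t), n * (2 * D) * τ), s) = f (Λ (b, n * (2 * D) * (τ + t / (2 * D))), s)
  rw [hΛ.add]
  congr 4
  field_simp
  ring

theorem len_orb_one (hD : 0 < D) (hΛ : IsFlow DB (2 * D) Λ) (f : B × ℝ → M) (p : B × ℝ) :
    len (orb hΛ 1 f p) = eVariationOn (fun t => f (Λ (p.1, t), p.2)) (Icc 0 (2 * D)) := by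
  rw [← var_scale (fun t => f (Λ (p.1, t), p.2)) (by positivity : 0 < 2 * D)]
  simp only [len, orb, Nat.cast_one, one_mul]

theorem len_orb_two (hD : 0 < D) (hΛ : IsFlow DB (2 * D) Λ) (f : B × ℝ → M) (p : B × ℝ) :
    len (orb hΛ 2 f p) = 2 * eVariationOn (fun t => f (Λ (p.1, t), p.2)) (Icc 0 (2 * D)) := by
  rw [← var_double (by positivity) fun t => by rw [← hΛ.add, hΛ.per],
    ← var_scale (fun t => f (Λ (p.1, t), p.2)) (by positivity : 0 < 2 * (2 * D))]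
  simp only [len, orb, Nat.cast_ofNat]

end Orb

variable {Lam : Pr e D × ℝ → Pr e D} {Y : Pr e D → E} {ε₀ : ℝ}

/-- the contraction `g`, its loops `gX` and the contraction `k2` of the doubled push-offs -/
structure G2 (P : PushL F hD hB hdiam Lam Y ε₀) (ε : ℝ) (g : Pr e D × ℝ → M)
    (hg : ((dPr e D).prod (Dif.lin ℝ)).Map (dM E M) g) (gX k2 : Pr e D × ℝ → X M) : Prop where
  mem : ε ∈ Ioc 0 ε₀
  g0 : ∀ b, g (b, 0) = foot b.v
  g1 : ∀ b t, g (Lam (b, t), 1) = g (b, 1)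
  b1 : ∀ G : Form (dM E M), G.d = 0 → ∃ l : Form (dPr e D),
    J Lam P.flow.map (2 * D) (Form.K (Form.pull g hg G) -
      Form.pull (Th F hD hB hdiam) (map_Th F hD hB hdiam) (Form.K (Form.pull g hg G))) =
    (-1 : ℝ) • J (R F hD hB hdiam) (isFlow_R F hD hB hdiam).map (2 * Real.pi)
      (Form.pull Pr.v map_v (WR.B0 F D G)) + l.d
  hgX : ((dPr e D).prod (Dif.lin ℝ)).Map (dX (dM E M) D) gX
  gX_φ : ∀ b s t, gX (Lam (b, t), s) = Φ D (gX (b, s), t)
  gX0 : ∀ b, gX (b, 0) = γ F hD hB hdiam b.v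
  gX1 : ∀ b, gX (b, 1) = cst (g (b, 1))
  hk2 : ((dPr e D).prod (Dif.lin ℝ)).Map (dX (dM E M) D) k2
  k2_φ : ∀ b u t, k2 (Lam (b, 2 * t), u) = Φ D (k2 (b, u), t)
  k2_0 : ∀ b u, u ≤ 0 → ∀ τ, (k2 (b, u)).1 τ = poP e Y ε (Lam (b, 4 * D * τ))
  k2_1 : ∀ b, k2 (b, 1) = cst (g (b, 1))

theorem exists_gH (P : PushL F hD hB hdiam Lam Y ε₀) {l : ℕ}
    (hP : ∀ x y : M, dist x y = D → finrank ℝ (H775.Pl e D x y) = l + 1) {ε₂ : ℝ} (hε₂ : 0 < ε₂) :
    ∃ (ε : ℝ) (H : Pr e D × ℝ → M) (_ : ((dPr e D).prod (Dif.lin ℝ)).Map (dM E M) H)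
      (hg : ((dPr e D).prod (Dif.lin ℝ)).Map (dM E M)
        (gg (fun p : Pr e D × ℝ => poP e Y p.2 p.1) ε fun b u => H (b, u))),
      ε ∈ Ioc 0 ε₀ ∧ ε ≤ ε₂ ∧ (∀ b u, u ≤ 0 → H (b, u) = poP e Y ε b) ∧
      (∀ b t, H (Lam (b, t), 1) = H (b, 1)) ∧
      (∀ b u, eVariationOn (fun t => H (Lam (b, t), u)) (Icc 0 (2 * D)) <
        ENNReal.ofReal (2 * D)) ∧
      ∀ G : Form (dM E M), G.d = 0 → ∃ l : Form (dPr e D),
        J Lam P.flow.map (2 * D) (Form.K (Form.pull _ hg G)) =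
          -KT Real.pi (Form.pull (cv e D) (map_cv F hD hB hdiam) (WR.B0 F D G)) + l.d := by
  obtain ⟨ε₁, hε₁, hA, hBd⟩ := apex_unif F hD hB hdiam (pc_Pr F hD hB hdiam hP) P.flow P.v P.half
    P.fld P.sgn
  obtain ⟨ε, hε, hε0, hε1, hε2⟩ : ∃ ε : ℝ, 0 < ε ∧ ε ≤ ε₀ ∧ ε ≤ ε₁ ∧ ε ≤ ε₂ :=
    ⟨min ε₀ (min ε₁ ε₂), lt_min P.pos (lt_min hε₁ hε₂), min_le_left _ _,
      (min_le_right _ _).trans (min_le_left _ _), (min_le_right _ _).trans (min_le_right _ _)⟩
  have h2D : 0 < 2 * D := by linarith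
  have hPm : ((dPr e D).prod (Dif.lin ℝ)).Map (dM E M)
      (fun p : Pr e D × ℝ => poP e Y p.2 p.1) := map_poP F P.fld
  have hC : (dPr e D).Map (dM E M) (fun b => poP e Y ε b) := map_at hPm ε
  obtain ⟨H, hH, h0, _, h1, hlen⟩ := uec_Pr F hD hB hdiam hP P.flow P.v hC
    (P.lenp ε ⟨hε, hε0⟩)
  have hH' : ((dPr e D).prod (Dif.lin ℝ)).Map (dM E M)
      (fun p : Pr e D × ℝ => (fun b u => H (b, u)) p.1 p.2) := hH
  have hZ : (((dPr e D).prod (Dif.lin ℝ)).prod (Dif.lin ℝ)).Map (dM E M)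
      (fun p : (Pr e D × ℝ) × ℝ => apx e Y p.1.1 p.1.2 p.2) := map_apx F P.fld
  have h0' : ∀ b u, u ≤ 0 → (fun b u => H (b, u)) b u =
      (fun p : Pr e D × ℝ => poP e Y p.2 p.1) (b, ε) := h0
  set c := gg (fun p : Pr e D × ℝ => poP e Y p.2 p.1) ε (fun b u => H (b, u)) with hcdef
  have hγ : ((dPr e D).prod (Dif.lin ℝ)).Map (dM E M) c := gg_map hPm hH' h0'
  set ap := apP (fun p : (Pr e D × ℝ) × ℝ => apx e Y p.1.1 p.1.2 p.2) c (D / 2) ε with hapdef
  have hap : ((dPr e D).prod (Dif.lin ℝ)).Map (dM E M) ap :=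
    apP_map hZ hPm hH' h0' (fun b => apx_zero_left Y b ε)
  have hγ0 : ∀ b, c (b, 0) = foot b.v := fun b => (gg_zero b).trans (poP_zero F Y b)
  have hγ1 : ∀ b t, c (Lam (b, t), 1) = c (b, 1) := fun b t => by
    rw [hcdef, gg_one, gg_one]
    exact h1 b t
  have hap0 : ∀ b, ap (b, 0) = gm e (b.w, D / 2) := fun b =>
    (apP_zero b).trans ((apx_zero_right Y b (D / 2)).trans (e_foot_w b (D / 2)))
  have hdist : ∀ b t r, dist (ap (b, r)) (c (Lam (b, t), r)) < D := by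
    intro b t r
    refine apP_dist (δ := D) P.flow h2D hε (by linarith) h0' (fun b u => ?_)
      (fun b s hs t => hA ε ⟨hε, hε1⟩ b s hs t)
      (fun ε₁' h1' ε₂' h2' b t => hBd ε₁' ⟨h1'.1, h1'.2.trans hε1⟩ ε₂'
        ⟨h2'.1, h2'.2.trans hε1⟩ b t) b t r
    refine (hlen b u).trans_le (le_of_eq ?_)
    rw [ENNReal.ofReal_mul zero_le_two, ENNReal.ofReal_ofNat]
  refine ⟨ε, H, hH, hγ, ⟨hε, hε0⟩, hε2, h0, h1, hlen, fun G hG => ?_⟩
  have hc : (((dPr e D).prod (Dif.lin ℝ)).prod (Dif.lin ℝ)).Map (dM E M)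
      (fun p => WD3.gG e (ap (p.1.1, 0)) (c (Lam p.1, 0)) p.2) :=
    fun {E'} _ _ _ {u x} h => (WD3.geoM F hB).smooth
      (map_at hap 0 h.1.1) (map_at hγ 0 (P.flow.map h.1)) h.2 (hdist (u x).1.1 (u x).1.2 0)
  obtain ⟨l₁, hl₁⟩ := transg_cone (WD3.geoM F hB) hG P.flow hγ hap hdist hγ1 hc
  have efun : (fun p : (Pr e D × ℝ) × ℝ => WD3.gG e (ap (p.1.1, 0)) (c (Lam p.1, 0)) p.2) =
      fun p => WD3.gG e (gm e (p.1.1.w, D / 2)) (gm e (p.1.1.v, p.1.2)) p.2 := by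
    funext p
    rw [hap0, hγ0, P.v, foot_phi]
  have hc' : (((dPr e D).prod (Dif.lin ℝ)).prod (Dif.lin ℝ)).Map (dM E M)
      (fun p => WD3.gG e (gm e (p.1.1.w, D / 2)) (gm e (p.1.1.v, p.1.2)) p.2) := by
    rw [← efun]
    exact hc
  obtain ⟨l₂, hl₂⟩ := cone_geo F hD hB hdiam hG hc'
  have e3 : Form.pull (fun p : (Pr e D × ℝ) × ℝ =>
      (WD3.geoM F hB).G (ap (p.1.1, 0)) (c (Lam p.1, 0)) p.2) hc G =
      Form.pull (fun p => WD3.gG e (gm e (p.1.1.w, D / 2)) (gm e (p.1.1.v, p.1.2)) p.2) hc' G :=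
    Form.pull_congr _ _ efun G
  refine ⟨l₁ - l₂, ?_⟩
  rw [hl₁, e3, hl₂, Form.d_sub]
  abel

/-- from the transgression of the contraction to `b₁ = - b₀` -/
theorem b1_of (P : PushL F hD hB hdiam Lam Y ε₀) {G : Form (dM E M)} {W m : Form (dPr e D)}
    (hm : J Lam P.flow.map (2 * D) W =
      -KT Real.pi (Form.pull (cv e D) (map_cv F hD hB hdiam) (WR.B0 F D G)) + m.d) :
    ∃ l : Form (dPr e D), J Lam P.flow.map (2 * D)
      (W - Form.pull (Th F hD hB hdiam) (map_Th F hD hB hdiam) W) =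
      (-1 : ℝ) • J (R F hD hB hdiam) (isFlow_R F hD hB hdiam).map (2 * Real.pi)
        (Form.pull Pr.v map_v (WR.B0 F D G)) + l.d := by
  set h' := KT Real.pi (Form.pull (cv e D) (map_cv F hD hB hdiam) (WR.B0 F D G)) with hh'
  set ρ := ngP F hD hB hdiam with hρ
  have e1 : J Lam P.flow.map (2 * D) (Form.pull (Th F hD hB hdiam) (map_Th F hD hB hdiam) W) =
      Form.pull (Th F hD hB hdiam) (map_Th F hD hB hdiam) (J Lam P.flow.map (2 * D) W) :=
    (pull_J P.flow.map P.flow.map (map_Th F hD hB hdiam) P.Th_Lam (2 * D) W).symm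
  have e2 : Form.pull (Th F hD hB hdiam) (map_Th F hD hB hdiam) (J Lam P.flow.map (2 * D) W) =
      Form.pull ρ (map_ngP F hD hB hdiam) (J Lam P.flow.map (2 * D) W) := by
    have hbas : Basic Lam P.flow.map
        (Form.pull ρ (map_ngP F hD hB hdiam) (J Lam P.flow.map (2 * D) W)) := by
      rw [pull_J P.flow.map P.flow.map (map_ngP F hD hB hdiam)
        (fun b t => (P.neg b t).symm) (2 * D) W]
      exact J_basic P.flow _
    have e3 := congrArg (at_ D) hbas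
    rw [at_pr, at_pull_of P.flow.map D] at e3
    rw [← e3]
    exact (H584.pull_pull (map_at P.flow.map D) (map_ngP F hD hB hdiam)
      (map_Th F hD hB hdiam) (fun b => (P.Th_eq b).symm) _).symm
  refine ⟨m - Form.pull ρ (map_ngP F hD hB hdiam) m, ?_⟩
  rw [J_sub, e1, e2, hm, J_R_eq]
  have e4 : Form.pull ρ (map_ngP F hD hB hdiam) (-h' + m.d) =
      -Form.pull ρ (map_ngP F hD hB hdiam) h' + (Form.pull ρ (map_ngP F hD hB hdiam) m).d := by
    rw [← Form.pull_d]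
    have h1 := map_add (Form.pullA ρ (map_ngP F hD hB hdiam)) (-h') m.d
    have h2 := map_neg (Form.pullA ρ (map_ngP F hD hB hdiam)) h'
    rw [h2] at h1
    exact h1
  rw [e4, Form.d_sub, neg_one_smul]
  abel

/-- **The contraction, in the space of loops.** -/
theorem exists_g2 (P : PushL F hD hB hdiam Lam Y ε₀) {l : ℕ}
    (hP : ∀ x y : M, dist x y = D → finrank ℝ (H775.Pl e D x y) = l + 1) {ε₂ : ℝ} (hε₂ : 0 < ε₂) :
    ∃ (ε : ℝ) (g : Pr e D × ℝ → M) (hg : ((dPr e D).prod (Dif.lin ℝ)).Map (dM E M) g)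
      (gX k2 : Pr e D × ℝ → X M), ε ≤ ε₂ ∧ G2 P ε g hg gX k2 := by
  obtain ⟨ε, H, hH, hg, hε, hε2, h0, h1, hlen, hJ⟩ := exists_gH P hP hε₂
  have g0 : ∀ b, gg (fun p : Pr e D × ℝ => poP e Y p.2 p.1) ε (fun b u => H (b, u)) (b, 0) =
      foot b.v := fun b => (gg_zero b).trans (poP_zero F Y b)
  have g1 : ∀ b, gg (fun p : Pr e D × ℝ => poP e Y p.2 p.1) ε (fun b u => H (b, u)) (b, 1) =
      H (b, 1) := fun b => gg_one b
  refine ⟨ε, _, hg, orb P.flow 1 _, orb P.flow 2 H, hε2, hε, g0, fun b t => ?_, fun G hG => ?_,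
    map_orb P.flow 1 hg fun p => ?_, fun b s t => ?_, fun b => X.ext fun τ => ?_,
    fun b => X.ext fun τ => ?_, map_orb P.flow 2 hH fun p => ?_,
    fun b u t => orb_flow hD P.flow 2 H b u t, fun b u hu τ => ?_, fun b => X.ext fun τ => ?_⟩
  · rw [g1, g1, h1]
  · obtain ⟨m, hm⟩ := hJ G hG
    exact b1_of P hm
  · rw [len_orb_one hD]
    refine lt_of_le_of_lt ?_ (two_lt_four hD)
    obtain ⟨b, s⟩ := p
    by_cases hs : s < 1 / 2
    · simp only [gg_lt hs]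
      rcases (mul_nonneg hε.1.le (stp_nonneg (2 * s))).eq_or_lt with h | h
      · simp only [← h, poP_zero F, P.v, foot_phi]
        exact var_gm F b.v (by positivity)
      · exact (P.lenp _ ⟨h, (mul_le_of_le_one_right hε.1.le (stp_le_one _)).trans hε.2⟩ b).le
    · simp only [gg, if_neg hs]
      exact (hlen b _).le
  · have h := orb_flow hD P.flow 1
      (gg (fun p : Pr e D × ℝ => poP e Y p.2 p.1) ε fun b u => H (b, u)) b s t
    rwa [Nat.cast_one, one_mul] at h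
  · rw [orb_apply, g0, P.v, foot_phi, Nat.cast_one, one_mul, γ_apply]
  · rw [orb_apply, g1, g1, h1]
    rfl
  · rw [len_orb_two hD, show 4 * D = 2 * (2 * D) by ring, ENNReal.ofReal_mul zero_le_two,
      ENNReal.ofReal_ofNat]
    exact ENNReal.mul_lt_mul_right two_ne_zero ENNReal.ofNat_ne_top (hlen p.1 p.2)
  · rw [orb_apply, h0 _ _ hu, Nat.cast_ofNat, show 2 * (2 * D) = 4 * D by ring]
  · rw [orb_apply, g1, h1]
    rfl

end

end Vale.Agent.P231Z.Loop
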